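import Crest.Agent.X262.End95.Pg
import Crest.Agent.X262.DivB81.Ctr
import Crest.Agent.X262.KV.Crv
import Crest.Agent.X262.Geo.Adj

/-!
# Row 262, BND (helper43): the ruling of an exceptional divisor is contracted

* `exists_theta`, `eff_of_pg` : the form `ω ∧ dx` is a section of `K + 2 M`;
* `lift` : sections of `K_V + N|V` lift (vanishing theorem), for any divisorial `V`;
* `gr`   : an exceptional klt divisor has no section of `K_V + N|V`;
* `rcStmt : Bnd.RCStmt`.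
-/

set_option autoImplicit false
set_option linter.style.haveILetI false

open scoped KaehlerDifferential

noncomputable section

namespace Crest.Agent.X262.Rc43

open Crest.Agent.X277 Crest.Agent.X277.BD Crest.Agent.X277.Lef Crest.Agent.X277.Pst
open Crest.Agent.X277.BD.Br (On oP kP)
open Crest.Agent.X277.BD.Cyc (Rf plV lnr_plV surj_plV)
open Crest.Agent.X262.Mod Crest.Agent.X262.Sark Crest.Agent.X262.Bnd Crest.Agent.X262.Rul
open Crest.Agent.X262.Geo (od)
open Crest.Agent.X277.Neg (nv)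
open Module WithZero

section Form

variable {k L E : Type} [Field k] [CharZero k] [Field L] [Field E] [Algebra k L] [Algebra k E]
  [Algebra L E] [IsScalarTower k L E] {m : ℕ}

/-- the form `b₁ ∧ ⋯ ∧ bₘ ∧ η` -/
theorem exists_theta (b : Basis (Fin m) L Ω[L⁄k]) (b' : Basis (Fin (m + 1)) E Ω[E⁄k]) :
    ∃ θ : Ω[E⁄k] →ₗ[E] E, (∀ (y : E) (z : Fin m → L),
      jac b' (Fin.cons y fun i => algebraMap L E (z i)) =
        algebraMap L E (jac b z) * θ (KaehlerDifferential.D k E y)) ∧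
      ∀ y, Transcendental L y → θ (KaehlerDifferential.D k E y) ≠ 0 := by
  classical
  obtain ⟨f, hf, hD⟩ := BRep.exists_omap (IsScalarTower.toAlgHom k L E)
  let θ : Ω[E⁄k] →ₗ[E] E :=
    { toFun := fun η => b'.det.curryLeft η fun j => f (b j)
      map_add' := fun η η' => by rw [map_add, AlternatingMap.add_apply]
      map_smul' := fun c η => by rw [map_smul, AlternatingMap.smul_apply, RingHom.id_apply] }
  have key : ∀ (y : E) (z : Fin m → L), jac b' (Fin.cons y fun i => algebraMap L E (z i)) =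
      algebraMap L E (jac b z) * θ (KaehlerDifferential.D k E y) := fun y z => by
    let T := Fintype.linearCombination E fun j => f (b j)
    have h1 := congrArg (fun φ => φ fun i j =>
        algebraMap L E (b.repr (KaehlerDifferential.D k L (z i)) j))
      (AlternatingMap.eq_smul_basis_det (Pi.basisFun E (Fin m))
        ((b'.det.curryLeft (KaehlerDifferential.D k E y)).compLinearMap T))
    simp only [AlternatingMap.smul_apply, smul_eq_mul, AlternatingMap.compLinearMap_apply,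
      Pi.basisFun_det_apply] at h1
    have h2 : ∀ i, T (fun j => algebraMap L E (b.repr (KaehlerDifferential.D k L (z i)) j)) =
        KaehlerDifferential.D k E (algebraMap L E (z i)) := fun i => by
      rw [Fintype.linearCombination_apply]
      refine Eq.trans ?_ (hD (z i))
      conv_rhs => rw [← b.sum_repr (KaehlerDifferential.D k L (z i)), map_sum]
      exact Finset.sum_congr rfl fun j _ => (hf _ _).symm
    have h3 : ∀ j, T (Pi.basisFun E (Fin m) j) = f (b j) := fun j => by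
      simp [T]
    simp only [h2, h3] at h1
    rw [mul_comm, jac_eq_toMatrix b, RingHom.map_det, ← Matrix.det_transpose]
    refine Eq.trans ?_ h1
    rw [AlternatingMap.curryLeft_apply_apply, jac]
    congr 1
    funext l
    refine Fin.cases rfl (fun _ => rfl) l
  refine ⟨θ, key, fun y hy h0 => ?_⟩
  obtain ⟨ι, x, hx⟩ := exists_isTranscendenceBasis' k L
  have h1 := hx.cardinalMk_eq_trdeg
  rw [N8.trdeg_of_basis b, ← Cardinal.mk_fin, Cardinal.eq] at h1
  obtain ⟨e⟩ := h1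
  have h2 := (hx.1.comp _ e.symm.injective).sumElim_comp
    (algebraicIndependent_unique_type_iff (ι := Unit) (x := fun _ => y) |>.2 hy)
  have h3 := h2.comp (fun l : Fin (m + 1) => (Fin.cons (Sum.inl ()) Sum.inr : Fin (m + 1) → _) l)
    (Fin.cons_injective_iff.2 ⟨by simp, Sum.inr_injective⟩)
  obtain ⟨Z, hZ⟩ := Jet.exists_fr_of_tb (h3.isTranscendenceBasis_of_trdeg_le_of_finite
    (by rw [N8.trdeg_of_basis b', Cardinal.mk_fin]))
  have h4 := N8.jac_frame_ne b' Z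
  have h5 := key y (x ∘ e.symm)
  rw [h0, mul_zero] at h5
  refine h4 (Eq.trans ?_ h5)
  rw [hZ]
  refine congrArg (jac b') (funext fun l => ?_)
  refine Fin.cases rfl (fun _ => rfl) l

end Form

section Eff

variable {L E : Type} [Field L] [Field E] [Algebra ℂ L] [Algebra ℂ E] [Algebra L E]
  [IsScalarTower ℂ L E] {m : ℕ}

/-- **RC2**: the form `ω ∧ dx` -/
theorem eff_of_pg (h : PG ℂ L m) (P : PModel ℂ E) (b' : Bs (m + 1) E) {x : E}
    (hx : Transcendental L x) {M : BD ℂ E} (hM : M ∈ On P) (h1 : 1 ∈ M.Sec) (h2 : x ∈ M.Sec) :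
    Eff (kP P b' + 2 • M) := by
  haveI := Geo.eft P
  obtain ⟨b, g, hg, hr⟩ := h
  obtain ⟨θ, hθ, hne⟩ := exists_theta b b'
  refine ⟨algebraMap L E g * θ (KaehlerDifferential.D ℂ E x), ?_,
    mul_ne_zero ((map_ne_zero _).2 hg) (hne x hx)⟩
  refine (Geo.car_of_On (add_mem (Br.kP_mem b') (nsmul_mem hM 2))).mem_Sec (Geo.isMod_oP P)
    fun W hW => ?_
  let V : RZ ℂ L := ⟨W.1.comap (algebraMap L E), fun c => by
    rw [ValuationSubring.mem_comap, ← IsScalarTower.algebraMap_apply]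
    exact W.2 c⟩
  obtain ⟨z, hz, hv⟩ := hr V
  have hj : jac b z ≠ 0 := fun e => hg (by
    rw [e, map_zero, le_zero_iff] at hv
    simpa using hv)
  have h3 : W.v (algebraMap L E g) ≤ W.v (algebraMap L E (jac b z)) := by
    refine (RZ.le_iff ((map_ne_zero _).2 hj)).2 ?_
    rw [← map_div₀]
    exact (RZ.le_iff (V := V) hj).1 hv
  have h4 : ∀ y ∈ W.1, W.v (algebraMap L E g * θ (KaehlerDifferential.D ℂ E y)) ≤
      (kP P b').val W := fun y hy => by
    refine le_trans ?_ (Sark27.jac_le_kP b' hW (c := Fin.cons y fun i => algebraMap L E (z i))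
      fun l => Fin.cases hy hz l)
    rw [hθ, map_mul, map_mul]
    exact mul_le_mul_left h3 _
  rw [val_add, val_nsmul]
  rcases W.1.mem_or_inv_mem x with h5 | h5
  · refine (h4 x h5).trans (le_mul_of_one_le_right' (one_le_pow_of_one_le' ?_ 2))
    simpa using h1 W
  · have h0 : x ≠ 0 := fun e => hx (e ▸ isAlgebraic_zero)
    have h6 : algebraMap L E g * θ (KaehlerDifferential.D ℂ E x) =
        -(algebraMap L E g * θ (KaehlerDifferential.D ℂ E x⁻¹) * x ^ 2) := by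
      rw [Derivation.leibniz_inv, map_smul, smul_eq_mul]
      field_simp
    rw [h6, Valuation.map_neg, map_mul, map_pow]
    exact mul_le_mul' (h4 _ h5) (pow_le_pow_left' (h2 W) 2)

end Eff

section Lift

variable {K : Type} [Field K] [Algebra ℂ K] [Algebra.EssFiniteType ℂ K] {n : ℕ} {V : RZ ℂ K}

/-- a divisorial valuation is a component of a boundary -/
theorem exists_bd (hV : Dvs V) (b : Bs n K) (H : BD ℂ K) : ∃ (P : PModel ℂ K)
    (B : Res.Log.Bd P n) (e : B.ι), B.v e = nv V ∧ Prm (oP P) V ∧ H ∈ On P := by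
  obtain ⟨P₀⟩ := Unf.nonempty_pmodel (F := K)
  obtain ⟨c, -, hc⟩ := Geo.exists_prm hV
  obtain ⟨t, ht⟩ := Geo.nv_unif hV
  obtain ⟨P, B, -, -, h⟩ := FG.exists_hi (FG.bd0 P₀ b) ∅ ![c, H, pr ℂ t]
  have hm : ∀ i, ![c, H, pr ℂ t] i ∈ On P := fun i => (h i).symm ▸ FG.dvs_mem B _
  have h0 : c ∈ On P := hm 0
  have h1 : H ∈ On P := hm 1
  have h2 : Prm (oP P) V := (Geo.car_of_On h0).prm hc
  by_contra hn
  have h3 := FG.ord_dvs_of_ne (C := B) (Geo.isPD_nv h2) (fun e he => hn ⟨P, B, e, he, h2, h1⟩)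
    fun e' => FG.od B e' (pr ℂ t)
  have h4 : od V (pr ℂ t) = 0 := (congrArg (od V) (h 2)).trans h3
  rw [Geo.od_pr (Link.ne_zero_of_v ht), ht, log_exp] at h4
  omega

/-- **LIFT**: sections of the adjoint class on a divisorial valuation lift -/
theorem lift (hV : Dvs V) (b : Bs (n + 1) K) (H : BD ℂ K) : ∃ (P : PModel ℂ K)
    (P' : PModel ℂ (Rf V)) (b' : Bs n (Rf V)) (q : Pl ℂ K ℂ (Rf V)) (u : K) (A : BD ℂ K),
    q.V = V ∧ (∀ f, q.r f = (plV V).r f) ∧ Prm (oP P) V ∧ H ∈ On P ∧ u ≠ 0 ∧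
    od V (kP P b + pr ℂ u) = -1 ∧
    (∀ U, Prm (oP P) U → U ≠ V → od U A = od U (kP P b + pr ℂ u)) ∧
    (∀ N ∈ On P, N.val V = 1 → q.res N ∈ On P') ∧
    ∀ N ∈ On P, Nef N → Big N → N.val V = 1 → ∀ s' ∈ (kP P' b' + q.res N).Sec,
      ∃ s ∈ (A + N).Sec, s ∈ V.1 ∧ q.r s = s' := by
  classical
  obtain ⟨P, B, e, he, hP, hH⟩ := exists_bd hV b H
  let p := Geo.toPlc (lnr_plV V) (surj_plV V) hV
  have hp : p.v = B.v e := he.symm
  obtain ⟨Q, Φ⟩ := FG.Fac.exists_facet B hp b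
  obtain ⟨x, y, hx, hA, -⟩ := FG.Fac.exists_ad hp b Q.B Φ.up
  obtain ⟨w, hw, hr⟩ := p.exists_r (jac Q.b fun i => p.r (y i))⁻¹
  have h1 := hA.jac_res_ne Q.b
  have h2 : w ≠ 0 := fun h0 => inv_ne_zero h1 (by rw [← hr, h0, p.r_zero])
  have h3 := B.τ_ne e x
  obtain ⟨b₁, hb⟩ := FG.Fac.exists_basis_det b (div_ne_zero (mul_ne_zero h2 hA.ne) h3)
  have h4 : w * jac b (Fin.cons (B.τ e x) y) / B.τ e x * B.τ e x ^ 1 /
      jac b (Fin.cons (B.τ e x) y) ^ 1 = w := by
    have := hA.ne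
    field_simp
  have h5 := Link.Plc.isRes_of_ad (bκ := Q.b) hA (h4.symm ▸ hw)
  rw [h4, hr, pow_one, inv_mul_cancel₀ h1, ← hb] at h5
  obtain ⟨Ψ, hΨ, -⟩ := FG.Fac.exists_fc (b := b₁) (b' := Q.b) hp fun x y hx hy hj => by
    simpa only [jac_change b b₁, pow_one, one_mul,
      mul_div_mul_left _ _ (det_basis_ne_zero b b₁)] using h5 x y hx hy hj
  have hod : ∀ a, od V a = FG.od B e a := fun a => FG.ord_eq_od he _ a
  have hq : (FG.pl Ψ.p).V = V := by
    rw [hΨ]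
    exact Geo.rz_nv hV
  have h6 : ∀ N : BD ℂ K, N.val V = 1 → FG.od B e N = 0 := fun N hN =>
    hod N ▸ (Geo.od_eq_zero hV).2 hN
  refine ⟨P, Ψ.P', Ψ.b', FG.pl Ψ.p, b₁.det b, kP P b₁ + FG.dvs B (Pi.single e 1), hq,
    fun f => ?_, hP, hH, det_basis_ne_zero b₁ b, ?_, fun U hU hne => ?_,
    fun N hN h0 => Ψ.res_on N hN (h6 N h0), fun N hN hn hb h0 s' hs => ?_⟩
  · rw [FG.Fac.pl_r, hΨ]
    exact Geo.toPlc_r _ _ hV f
  · rw [← Br.kP_change, hod, Ψ.od_K]
  · rw [← Br.kP_change, map_add, add_eq_left]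
    by_cases h7 : ∃ e', B.v e' = nv U
    · obtain ⟨e', h7⟩ := h7
      refine (FG.ord_eq_od h7 _ _).trans ?_
      rw [FG.od_dvs, Pi.single_eq_of_ne]
      rintro rfl
      apply hne
      rw [← Geo.rz_nv hU.dvs, ← Geo.rz_nv hV]
      congr 1
      exact h7.symm.trans he
    · exact FG.ord_dvs_of_ne (Geo.isPD_nv hU) (not_exists.1 h7) _
  · have h7 : FG.od B e (kP P b₁ + FG.dvs B (Pi.single e 1)) = 0 := by simp [Ψ.od_K]
    have h8 : kP P b₁ + FG.dvs B (Pi.single e 1) + N - kP P b₁ - FG.dvs B (Pi.single e 1) = N := by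
      abel
    obtain ⟨s, h9, h10, h11⟩ := KV.surj_of_nef Ψ
      (D := kP P b₁ + FG.dvs B (Pi.single e 1) + N)
      (add_mem (add_mem (Br.kP_mem b₁) (FG.dvs_mem B _)) hN) (by rw [map_add, h7, h6 N h0, add_zero])
      (h8.symm ▸ hn) (h8.symm ▸ hb) s' (by
        rwa [Pl.res_add (Ψ.val_eq_one.2 h7) (Ψ.val_eq_one.2 (h6 N h0)), Ψ.res_K])
    refine ⟨s, h9, ?_, (FG.Fac.pl_r _ s).trans h11⟩
    rw [hΨ] at h10
    exact (Geo.nv_le_one hV).1 h10

end Lift

section Main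

variable {K : Type} [Field K] [Algebra ℂ K] [Algebra.EssFiniteType ℂ K] {n : ℕ} {V : RZ ℂ K}

/-- **RC** for klt models, in any dimension -/
theorem rc {b : Bs (n + 2) K} {H κ : BD ℂ K} {r : ℕ} (hH : IsMod H) (hκ : Car H κ)
    (h1 : ∀ (W : PModel ℂ K) (U : RZ ℂ K), Prm (oP W) U → Prm H U → r * od U (kP W b) ≤ od U κ)
    (hV : Dvs V) (hn : ¬ Prm H V)
    (h2 : ∀ W : PModel ℂ K, Prm (oP W) V → od V κ < r * (od V (kP W b) + 1))
    {L : Type} [Field L] [Algebra ℂ L] [Algebra L (Rf V)] [IsScalarTower ℂ L (Rf V)]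
    (hL : PG ℂ L n) {x : Rf V} (hx : x ∈ ctr H V) : IsAlgebraic L x := by
  by_contra ht
  obtain ⟨f, ⟨m, g, g1, g2, g3⟩, rfl⟩ := DivB.mem_ctr.1 hx
  obtain ⟨h, k1, k2⟩ := hH.free.exists_gen V
  obtain ⟨P, P', b', q, u, A, hq, hr, hP, hHP, hu, a1, a2, a3, a4⟩ := lift hV b H
  have g0 := ne_of_val g2
  have k0 := ne_of_val k2
  have m1 : (m • H - pr ℂ g).val V = 1 := Pl.val_sub_gen (p := plV V) g2
  have m2 : (H - pr ℂ h).val V = 1 := Pl.val_sub_gen (p := plV V) k2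
  have o1 : m • H - pr ℂ g ∈ On P := sub_mem (nsmul_mem hHP m) (Br.pr_mem g)
  have o2 : H - pr ℂ h ∈ On P := sub_mem hHP (Br.pr_mem h)
  have f1 : Free (m • H - pr ℂ g) := sub_eq_add_neg (m • H) _ ▸ (hH.free.nsmul m).add (free_neg_pr g)
  have f2 : Free (H - pr ℂ h) := sub_eq_add_neg H _ ▸ hH.free.add (free_neg_pr h)
  have m3 : (2 • (m • H - pr ℂ g)).val V = 1 := by rw [val_nsmul, m1, one_pow]
  have m4 : (2 • (m • H - pr ℂ g) + (H - pr ℂ h)).val V = 1 := by rw [val_add, m3, m2, mul_one]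
  have hq' : ∀ {a : BD ℂ K}, a.val V = 1 → a.val q.V = 1 := fun h => by rwa [hq]
  obtain ⟨s', s1, s2⟩ := (eff_of_pg hL P' b' ht (a3 _ o1 m1)
    (q.r_one ▸ Pl.r_mem_Sec (hq' m1) ((mem_Sec_sub_pr g0).2 (by rwa [one_mul])))
    (hr f ▸ Pl.r_mem_Sec (hq' m1) ((mem_Sec_sub_pr g0).2 g3))).add
    (Pl.free_res (p := q) f2 (hq' m2)).eff
  obtain ⟨s, s3, -, s4⟩ := a4 _ (add_mem (nsmul_mem o1 2) o2) ((f1.nsmul 2).add f2).nef
    (add_comm (H - pr ℂ h) _ ▸ ((KV.lin_sub_pr H k0).big hH.big).add_eff (f1.nsmul 2).eff) m4 s' (by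
      rwa [Pl.res_add (hq' m3) (hq' m2), Pl.res_nsmul (hq' m1), ← add_assoc])
  have c1 : Car H (2 • (m • H - pr ℂ g) + (H - pr ℂ h)) :=
    ((((car_self hH.free).nsmul m).sub (car_pr g)).nsmul 2).add ((car_self hH.free).sub (car_pr h))
  generalize 2 • (m • H - pr ℂ g) + (H - pr ℂ h) = N at m4 s3 c1
  have s5 : V.v s = 1 := Pl.r_ne_zero_iff (p := plV V).1 (by rwa [← hr, s4])
  have s0 : s ≠ 0 := RZ.ne_zero_iff.1 (s5 ▸ one_ne_zero)
  have s6 : r • pr ℂ s ≤ κ + r • (pr ℂ u + N) := by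
    refine Geo.le_of_od hH ((car_pr s).nsmul r) (hκ.add (((car_pr u).add c1).nsmul r))
      fun U hU => ?_
    have u1 := (Geo.car_of_On hHP).prm hU
    have u2 := Geo.od_mono (V := U) ((pr_le_iff s0).2 s3)
    have u3 := h1 P U u1 hU
    rw [map_add, a2 U u1 fun e => hn (e ▸ hU), map_add] at u2
    simp only [map_add, map_nsmul, nsmul_eq_mul]
    nlinarith [mul_le_mul_of_nonneg_left u2 (Int.natCast_nonneg r)]
  have s7 := Geo.od_mono (V := V) s6
  have s8 := h2 P hP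
  have s9 : od V (pr ℂ s) = 0 := (Geo.od_eq_zero hV).2 (by rw [val_pr s0, s5])
  rw [map_add] at a1
  simp only [map_add, map_nsmul, nsmul_eq_mul, s9, (Geo.od_eq_zero hV).2 m4] at s7
  have s10 : od V (pr ℂ u) = -(od V (kP P b) + 1) := by omega
  rw [s10] at s7
  linarith

end Main

/-- **RC** -/
theorem rcStmt : RCStmt := fun K _ _ _ b Y V L hV hn hL x hx => by
  refine rc (n := 2) (b := b) (r := Y.r) Y.mod Y.car (fun W U h1 h2 => ?_) hV hn (fun W hW => ?_)
    (End95.PG2.pg hL) hx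
  · rw [(Geo.od_eq_iff h2.dvs).2 (Y.κ_eq W U h1 h2), map_nsmul, nsmul_eq_mul]
  · have h1 := (Geo.od_lt_iff hV).2 (Y.κ_lt W V hW hn)
    rw [map_nsmul, nsmul_eq_mul] at h1
    have := Int.natCast_nonneg Y.r
    linarith

end Crest.Agent.X262.Rc43
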